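import Vale.Agent.P144.H436.JPf

/-!
Change of the phases in a Pfaffian.
-/

namespace Vale.Agent.N144.Ag

open Complex Vale.Agent.P144.AL Vale.Agent.P144.H436

variable {α ι 𝕜 : Type*} [CommRing 𝕜] {K : α → α → 𝕜}

theorem len_erase {l : List α} {j : ℕ} (hj : j < l.length) :
    (l.eraseIdx j).length + 1 = l.length := by
  rw [List.length_eraseIdx, if_pos hj]; omega

theorem Pf_slot {u u₁ u₂ : α} {s t : 𝕜} (h1 : ∀ x, K x u = s * K x u₁ + t * K x u₂)
    (h2 : ∀ x, K u x = s * K u₁ x + t * K u₂ x) (p r : List α) :
    Pf K (p ++ u :: r) = s * Pf K (p ++ u₁ :: r) + t * Pf K (p ++ u₂ :: r) := by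
  induction hn : p.length + r.length using Nat.strong_induction_on generalizing p r with
  | _ n ih =>
    cases p with
    | nil =>
      simp only [List.nil_append, Pf_cons]
      rw [← sumE_lin]
      exact sumE_congr r fun j hj => by rw [h2]; ring
    | cons c p =>
      simp only [List.cons_append, Pf_cons, sumE_append, sumE]
      rw [sumE_congr (g' := fun y w => s * (K c y * Pf K (w ++ u₁ :: r)) +
          t * (K c y * Pf K (w ++ u₂ :: r))) p fun j hj => by
          rw [ih _ (by rw [← hn, List.length_cons, ← len_erase hj]; omega) _ _ rfl]; ring,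
        sumE_congr (g' := fun y w => s * (K c y * Pf K (p ++ u₁ :: w)) +
          t * (K c y * Pf K (p ++ u₂ :: w))) r fun j hj => by
          rw [ih _ (by rw [← hn, List.length_cons, ← len_erase hj]; omega) _ _ rfl]; ring,
        sumE_lin, sumE_lin, h1]
      ring

theorem Pf_rep {u : α} (h : K u u = 0) (p r : List α) : Pf K (p ++ u :: u :: r) = 0 := by
  induction hn : p.length + r.length using Nat.strong_induction_on generalizing p r with
  | _ n ih =>
    cases p with
    | nil =>
      simp only [List.nil_append, Pf_cons, sumE]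
      rw [h, zero_mul, zero_sub, neg_eq_zero,
        ← sumE_symm (fun y z w => K u y * K u z * Pf K w) (fun y z w => by ring) r]
      refine sumE_congr r fun j hj => ?_
      have := sumE_lin (fun z w => K u z * Pf K w) (fun z w => K u z * Pf K w) (K u r[j]) 0
        (r.eraseIdx j)
      simp only [zero_mul, add_zero, ← mul_assoc] at this
      exact this.symm
    | cons c p =>
      simp only [List.cons_append, Pf_cons, sumE_append, sumE]
      rw [sumE_congr (g' := fun _ _ => 0) p fun j hj => by
          rw [ih _ (by rw [← hn, List.length_cons, ← len_erase hj]; omega) _ _ rfl, mul_zero],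
        sumE_congr (g' := fun _ _ => 0) r fun j hj => by
          rw [ih _ (by rw [← hn, List.length_cons, ← len_erase hj]; omega) _ _ rfl, mul_zero],
        sumE_zero, sumE_zero]
      ring

/-- The area spanned by two phases. -/
def ar (η η' : ℂ) : ℝ := η.re * η'.im - η.im * η'.re

theorem ar_mul (η η' σ : ℂ) : ar (η * σ) (η' * σ) = ‖σ ^ 2‖ * ar η η' := by
  rw [norm_pow, Complex.sq_norm, normSq_apply]
  simp only [ar, mul_re, mul_im]
  ring

/-- The kernel is bilinear and alternating in the phases. -/
structure Bil (f : ℝ →+* 𝕜) (K : α → α → 𝕜) (e : ℂ → α) : Prop where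
  l : ∀ η x, K (e η) x = f η.re * K (e 1) x + f η.im * K (e I) x
  r : ∀ η x, K x (e η) = f η.re * K x (e 1) + f η.im * K x (e I)
  z : ∀ η, K (e η) (e η) = 0

variable {f : ℝ →+* 𝕜}

theorem Pf_pair {e : ℂ → α} (h : Bil f K e) (η η' : ℂ) (p r : List α) :
    Pf K (p ++ e η :: e η' :: r) = f (ar η η') * Pf K (p ++ e 1 :: e I :: r) := by
  have k : ∀ η η', Pf K (p ++ e η :: e η' :: r) = f η.re * f η'.im * Pf K (p ++ e 1 :: e I :: r) +
      f η.im * f η'.re * Pf K (p ++ e I :: e 1 :: r) := fun η η' => by
    have a := fun u => Pf_slot (h.r η') (h.l η') (p ++ [u]) r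
    simp only [List.append_assoc, List.cons_append, List.nil_append] at a
    rw [Pf_slot (h.r η) (h.l η), a, a, Pf_rep (h.z 1), Pf_rep (h.z I)]
    ring
  have a := k (1 + I) (1 + I)
  rw [Pf_rep (h.z _)] at a
  simp only [add_re, one_re, I_re, add_zero, add_im, one_im, I_im, zero_add, map_one, one_mul] at a
  rw [k, ar, map_sub, map_mul, map_mul]
  linear_combination -(f η.im * f η'.re) * a

theorem Pf_flat {e : ι → ℂ → α} (h : ∀ k, Bil f K (e k)) (η η' : ι → ℂ) (ks : List ι)
    (p : List α) : Pf K (p ++ flat (fun k => e k (η k)) (fun k => e k (η' k)) ks) =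
      (ks.map fun k => f (ar (η k) (η' k))).prod *
        Pf K (p ++ flat (fun k => e k 1) (fun k => e k I) ks) := by
  induction ks generalizing p with
  | nil => simp [flat]
  | cons k ks ih =>
    have a := ih (p ++ [e k 1, e k I])
    simp only [List.append_assoc, List.cons_append, List.nil_append] at a
    rw [flat_cons, flat_cons, Pf_pair (h k), a, List.map_cons, List.prod_cons, mul_assoc]

/-- **Rotation and scaling of the phases.** -/
theorem Pf_rot {e : ι → ℂ → α} (h : ∀ k, Bil f K (e k)) (η η' σ : ι → ℂ) (ks : List ι)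
    (p : List α) : Pf K (p ++ flat (fun k => e k (η k * σ k)) (fun k => e k (η' k * σ k)) ks) =
      f (ks.map fun k => ‖σ k ^ 2‖).prod *
        Pf K (p ++ flat (fun k => e k (η k)) (fun k => e k (η' k)) ks) := by
  rw [Pf_flat h, Pf_flat h η, ← mul_assoc, map_list_prod, List.map_map, ← List.prod_map_mul]
  simp only [ar_mul, map_mul, Function.comp_apply]

end Vale.Agent.N144.Ag
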