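import Vale.Agent.N144.Ag.Pull
import Vale.Agent.N144.Ag.Pf

/-!
Covariance of the Pfaffian of the free model.
-/

namespace Vale.Agent.N144.Ag

open Complex Finset Vale.Agent.P144
open Vale.Agent.P144.AL (Pf Lb lbs flat flat_map flat_length Pf_map Pf_scale Pf_congr)
open Vale.Agent.P144.H135 (w0)
open Vale.Agent.P144Y (Dom)
open Vale.Agent.P144T (Good0)
open Vale.Agent.N144.C

variable {n m : ℕ}

/-- The subtracted terms are linear in the phase. -/
def LY (Y : Fin m → ℂ → ℂ) : Prop :=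
  ∀ k η, Y k η = η.re * Y k 1 + η.im * Y k I ∧ (η * Y k η).re = 0

theorem split (η : ℂ) : η = (η.re : ℝ) * 1 + (η.im : ℝ) * I := by rw [mul_one, re_add_im]

section

variable {κ : Type} [Fintype κ] {Ω : Dom} {ζ : κ → ℂ} {y : Fin m → ℂ} {e : EF m}
  {Y : Fin m → ℂ → ℂ}

theorem ly_of (h : IsE Ω ζ y e) : LY e.Y := fun k η =>
  ⟨by rw [← h.linY, ← split], h.asy k η⟩

theorem kE_l (k : Fin m) (η : ℂ) (l : Fin m) (η' : ℂ) :
    kE e y Y k η l η' = η.re * kE e y Y k 1 l η' + η.im * kE e y Y k I l η' := by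
  unfold kE
  split_ifs <;> simp only [mul_re, one_re, one_im, I_re, I_im] <;> ring

theorem kE_r (h : IsE Ω ζ y e) (hY : LY Y) (k : Fin m) (η : ℂ) (l : Fin m) (η' : ℂ) :
    kE e y Y k η l η' = η'.re * kE e y Y k η l 1 + η'.im * kE e y Y k η l I := by
  unfold kE
  split_ifs with a
  · rw [(ly_of h k η').1, (hY k η').1, ← re_ofReal_mul, ← re_ofReal_mul, ← add_re]
    congr 1
    ring
  · rw [← re_ofReal_mul, ← re_ofReal_mul, ← add_re]
    congr 1
    conv_lhs => rw [split η', h.linq k l a]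
    ring

theorem kE_z (h : IsE Ω ζ y e) (hY : LY Y) (k : Fin m) (η : ℂ) : kE e y Y k η k η = 0 := by
  rw [kE, if_pos rfl, mul_sub, sub_re, h.asy, (hY k η).2, sub_zero]

theorem LY.sgn (h : LY Y) {σ τ : ℂ} (e : τ ^ 2 = σ ^ 2) (k : Fin m) (η : ℂ) :
    τ * Y k (η * τ) = σ * Y k (η * σ) := by
  rcases sq_eq_sq_iff_eq_or_eq_neg.1 e with rfl | rfl
  · rfl
  · rw [(h k _).1, (h k (η * σ)).1, mul_neg, neg_re, neg_im]
    push_cast
    ring

variable {φ μ : ℂ → ℂ} {e' : EF m} {σ : Fin m → ℂ} {Y' : Fin m → ℂ → ℂ}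

theorem ER.div (h : ER φ μ y e e' σ) (k : Fin m) (w : ℂ) :
    w * μ (y k) / e.R k = σ k * (w / e'.R k) := by
  by_cases a : e'.R k = 0
  · have := h.R k
    rw [a, mul_zero] at this
    have b := (mul_eq_zero.1 this).resolve_left (h.ne k)
    exact absurd (by rw [← h.sq, b, zero_pow two_ne_zero]) (h.nz k)
  · have := h.ne k
    field_simp
    linear_combination -w * h.R k

theorem ER.kE (h : ER φ μ y e e' σ)
    (hY : ∀ k η, Y k η = σ k * Y' k (η * σ k)) (k : Fin m) (η : ℂ) (l : Fin m) (η' : ℂ) :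
    kE e y Y k η l η' = kE e' (fun k => φ (y k)) Y' k (η * σ k) l (η' * σ l) := by
  unfold C.kE
  split_ifs with a
  · subst a
    rw [h.Y, hY, ← mul_sub, mul_assoc]
  · rw [h.q k l a, h.div, mul_assoc]

end

/-- The kernel on labels with phases. -/
noncomputable def kX (x : Fin n → ℂ) (y : Fin m → ℂ) (s : Fin n → ℂ → ℂ) (e : EF m)
    (Y : Fin m → ℂ → ℂ) : Lb n m × ℂ → Lb n m × ℂ → ℂ
  | (.src i, _), (.src j, _) => -(I * (sc0 * s j (x i)) * (sc0 * s j (x j)))
  | (.src j, _), (.lo k, η) => ((η * (s j (y k) / e.R k)).re : ℝ) * (sc0 * s j (x j))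
  | (.lo k, η), (.lo l, η') => (kE e y Y k η l η' : ℝ)
  | _, _ => 0

/-- The list of the labels. -/
def lx (n : ℕ) (η η' : Fin m → ℂ) (ks : List (Fin m)) : List (Lb n m × ℂ) :=
  (List.finRange n).map (fun i => (Lb.src i, 0)) ++
    flat (fun k => (Lb.lo k, η k)) (fun k => (Lb.lo k, η' k)) ks

section

variable {x : Fin n → ℂ} {y : Fin m → ℂ} {s : Fin n → ℂ → ℂ} {e : EF m} {Y : Fin m → ℂ → ℂ}

theorem kF_eq (η : Fin m → Bool → ℂ) (ks : List (Fin m)) : Pf (kF x y s e Y η) (lbs ks []) =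
    Pf (kX x y s e Y) (lx n (fun k => η k false) (fun k => η k true) ks) := by
  let lab : Lb n m → Lb n m × ℂ := fun u => match u with
    | .src i => (.src i, 0)
    | .lo k => (.lo k, η k false)
    | .hi k => (.lo k, η k true)
    | .tp c => (.tp c, 0)
  have e1 : lx n (fun k => η k false) (fun k => η k true) ks = (lbs ks []).map lab := by
    simp only [lx, lbs, List.map_append, List.map_map, flat_map, List.map_nil, List.append_nil]
    rfl
  rw [e1, Pf_map]
  congr 1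
  funext u v
  cases u <;> cases v <;> rfl

theorem kX_bil {κ : Type} [Fintype κ] {Ω : Dom} {ζ : κ → ℂ} (h : IsE Ω ζ y e) (hY : LY Y)
    (k : Fin m) : Bil ofRealHom (kX x y s e Y) fun η => (Lb.lo k, η) where
  l := fun η ⟨u, η'⟩ => by
    cases u <;> simp only [kX, mul_zero, add_zero, ofRealHom_eq_coe]
    rw [kE_l]
    push_cast
    rfl
  r := fun η ⟨u, η'⟩ => by
    cases u <;> simp only [kX, mul_zero, add_zero, ofRealHom_eq_coe]
    · simp only [mul_re, one_re, one_im, I_re, I_im]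
      push_cast
      ring
    · rw [kE_r h hY]
      push_cast
      rfl
  z := fun η => by simp only [kX, kE_z h hY, ofReal_zero]

end

theorem csL_sq (x x' : Fin n → ℂ) (hx : Function.Injective x) (hx' : Function.Injective x')
    {L : List (Fin n)} (hL : L.Nodup) : csL x' L ^ 2 = csL x L ^ 2 *
      ∏ i ∈ L.toFinset, ∏ j ∈ L.toFinset, if j = i then 1 else (x i - x j) / (x' i - x' j) := by
  induction L with
  | nil => simp [csL]
  | cons a L ih =>
    obtain ⟨h1, h2⟩ := List.nodup_cons.1 hL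
    have h3 : a ∉ L.toFinset := by simpa using h1
    have e : ∀ j ∈ L.toFinset, (1 / (I * (x' a - x' j))) ^ 2 = (1 / (I * (x a - x j))) ^ 2 *
        ((if j = a then 1 else (x a - x j) / (x' a - x' j)) *
          if a = j then 1 else (x j - x a) / (x' j - x' a)) := fun j hj => by
      have b : j ≠ a := fun b => h3 (b ▸ hj)
      have b1 := sub_ne_zero.2 (hx.ne b)
      have b2 := sub_ne_zero.2 (hx.ne b.symm)
      have b3 := sub_ne_zero.2 (hx'.ne b)
      have b4 := sub_ne_zero.2 (hx'.ne b.symm)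
      rw [if_neg b, if_neg b.symm]
      field_simp
      ring
    simp only [csL, List.toFinset_cons, prod_insert h3, mul_pow, ih h2, if_true, one_mul,
      ← List.prod_toFinset _ h2, ← prod_pow, prod_congr rfl e, prod_mul_distrib]
    ring

section

variable {φ μ : ℂ → ℂ} {c : Pair0 φ}

theorem cs_sgn {x : Fin n → ℂ} (h : Mt c.Ω.D φ x (fun i => φ (x i)) μ) (hx : ∀ i, x i ∈ c.Ω.D)
    (hi : Function.Injective x) : ∃ τ : ℝ, (τ = 1 ∨ τ = -1) ∧
      csL x (List.finRange n) * ∏ i, μ (x i) = τ * csL (fun i => φ (x i)) (List.finRange n) := by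
  have hi' : Function.Injective fun i => φ (x i) := fun i j e => hi (c.bih.b.injOn (hx i) (hx j) e)
  have e := csL_sq x _ hi hi' (List.nodup_finRange n)
  rw [List.toFinset_finRange, prod_congr rfl (g := fun i => μ (x i) ^ 2) fun i _ => by
    have a := mt_at h (hx i)
    have b : ∏ j : {j // j ≠ i}, (φ (x i) - φ (x j)) ≠ 0 :=
      prod_ne_zero_iff.2 fun j _ => sub_ne_zero.2 (hi'.ne j.2.symm)
    rw [Fintype.prod_eq_mul_prod_subtype_ne _ i, if_pos rfl, one_mul, eq_div_of_mul_eq b a,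
      ← prod_div_distrib]
    exact prod_congr rfl fun j _ => if_neg j.2, prod_pow, ← mul_pow] at e
  rcases sq_eq_sq_iff_eq_or_eq_neg.1 e.symm with a | a
  · exact ⟨1, Or.inl rfl, by simpa using a⟩
  · exact ⟨-1, Or.inr rfl, by simpa using a⟩

theorem good_x {D : Set ℂ} {p : Pts} (hp : Good0 D p) : Function.Injective p.x :=
  fun _ _ e => Sum.inl_injective (hp.2.2 e)

theorem good_y {D : Set ℂ} {p : Pts} (hp : Good0 D p) : Function.Injective p.y :=
  fun _ _ e => Sum.inr_injective (hp.2.2 e)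

theorem good_xy {D : Set ℂ} {p : Pts} (hp : Good0 D p) (i : Fin p.n) (k : Fin p.m) :
    p.x i ≠ p.y k := fun e => Sum.inl_ne_inr (hp.2.2 (a₁ := .inl i) (a₂ := .inr k) e)

theorem ef_eq {y σ : Fin m → ℂ} (h : ∀ k, σ k ^ 2 = deriv φ (y k)) :
    ((univ : Finset (Fin m)).toList.map fun k => ‖σ k ^ 2‖).prod = ef φ y := by
  simp only [prod_map_toList, h, ef]

/-- The regular parts without branch points. -/
theorem Y0_pull {y σ : Fin m → ℂ} (hy : ∀ k, y k ∈ c.Ω.D) (hi : Function.Injective y)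
    (hσ : ∀ k, σ k ^ 2 = deriv φ (y k)) {e e' : EF m} (h : IsE c.Ω w0 y e)
    (h' : IsE c.Ω' w0 (fun k => φ (y k)) e') (k : Fin m) (η : ℂ) :
    e.Y k η = σ k * e'.Y k (η * σ k) := by
  obtain ⟨μ, hμ⟩ := c.mt0 Empty w0 (fun p => p.elim) (by simp)
  obtain ⟨τ, ht⟩ := exists_er (mt_congr (ω' := w0) hμ (fun _ => rfl) fun _ => by simp)
    (fun p => p.elim) hy hi (fun p => p.elim) h h'
  rw [ht.Y, (ly_of h').sgn ((ht.sq k).trans (hσ k).symm)]

theorem vF_cov {p : Pts} (hp : Good0 c.Ω.D p) (hn : Even p.n) {s s' : Fin p.n → ℂ → ℂ}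
    {e e₀ e' e₀' : EF p.m} (h : IsF c.Ω p s e e₀) (h' : IsF c.Ω' (im φ p) s' e' e₀')
    (hμ : Mt c.Ω.D φ p.x (fun i => φ (p.x i)) μ) {τ : ℝ} (hτ : csL p.x (List.finRange p.n) *
      ∏ i, μ (p.x i) = τ * csL (fun i => φ (p.x i)) (List.finRange p.n)) :
    vF p s e e₀ = τ * ef φ p.y * vF (im φ p) s' e' e₀' := by
  obtain ⟨σ, hσ⟩ := exists_er hμ (good_x hp) hp.2.1 (good_y hp) (good_xy hp) h.e h'.e
  have hY := Y0_pull hp.2.1 (good_y hp) hσ.sq h.e₀ h'.e₀
  choose t t1 t2 using fun j => (h.s j).unique (fun a b e => Subtype.ext (good_x hp e))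
    (fun (a : {i // i ≠ j}) e => a.2 (good_x hp e)) (hp.1 j) (ssol_pull hμ (hp.1 j) (h'.s j))
  have t3 : ∀ j, (t j : ℂ) * t j = 1 := fun j => by exact_mod_cast t1 j
  let w : Lb p.n p.m × ℂ → ℂ := fun u => match u.1 with
    | .src i => μ (p.x i)
    | _ => 1
  let r : Lb p.n p.m × ℂ → Lb p.n p.m × ℂ := fun u => match u.1 with
    | .lo k => (u.1, u.2 * σ k)
    | _ => u
  have e1 : kX p.x p.y s e e₀.Y = fun u v => w u * w v *
      kX (fun i => φ (p.x i)) (fun k => φ (p.y k)) s' e' e₀'.Y (r u) (r v) := by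
    funext ⟨u, η⟩ ⟨v, η'⟩
    cases u <;> cases v <;> simp only [kX, w, r, mul_zero, one_mul]
    · rename_i i j
      rw [t2 j _ (hp.1 i), t2 j _ (hp.1 j)]
      linear_combination -(I * sc0 ^ 2 * s' j (φ (p.x i)) * s' j (φ (p.x j)) * μ (p.x i) *
        μ (p.x j)) * t3 j
    · rename_i j k
      rw [t2 j _ (hp.2.1 k), t2 j _ (hp.1 j), mul_div_assoc, hσ.div, mul_left_comm η',
        re_ofReal_mul, ← mul_assoc η']
      push_cast
      linear_combination (((η' * σ k * (s' j (φ (p.y k)) / e'.R k)).re : ℝ) * sc0 *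
        s' j (φ (p.x j)) * μ (p.x j) : ℂ) * t3 j
    · rw [hσ.kE hY]
  have e2 : ∀ η η' ks, (lx p.n η η' ks).map r =
      lx p.n (fun k => η k * σ k) (fun k => η' k * σ k) ks := fun η η' ks => by
    simp only [lx, List.map_append, List.map_map, flat_map]
    rfl
  have e3 : ∀ η η' ks, ((lx p.n η η' ks).map w).prod = ∏ i, μ (p.x i) := fun η η' ks => by
    simp only [lx, List.map_append, List.map_map, flat_map, List.prod_append]
    rw [show (flat (fun k => w (Lb.lo k, η k)) (fun k => w (Lb.lo k, η' k)) ks).prod = 1 from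
      List.prod_eq_one fun a ha => by
        obtain ⟨k, -, hk⟩ := List.mem_flatMap.1 ha
        simpa [w] using hk, mul_one, Fin.prod_univ_def]
    rfl
  unfold vF
  rw [kF_eq, kF_eq, e1, Pf_scale _ _ _ (by
    rw [lx, List.length_append, flat_length, List.length_map, List.length_finRange]
    exact hn.add (even_two_mul _)), ← Pf_map, e2, e3, lx, Pf_rot (kX_bil h'.e (ly_of h'.e₀)),
    ef_eq hσ.sq, ← mul_assoc, hτ, mul_assoc (τ : ℂ), re_ofReal_mul, mul_left_comm (csL _ _),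
    ofRealHom_eq_coe, re_ofReal_mul, lx]
  ring

theorem isE_nil {κ : Type} [Fintype κ] (Ω : Dom) (ζ : κ → ℂ) (y : Fin 0 → ℂ) : IsE Ω ζ y eN :=
  ⟨fun k => k.elim0, fun k => k.elim0, fun k => k.elim0, fun k => k.elim0, fun k => k.elim0⟩

theorem good_q0 {D : Set ℂ} {p : Pts} (hp : Good0 D p) : Good0 D (q0 p) := by
  refine ⟨hp.1, fun k => k.elim0, ?_⟩
  rintro (i | k) (j | l) e
  exacts [congrArg _ (good_x hp e), l.elim0, k.elim0, k.elim0]

theorem isF_q0 {Ω : Dom} {p : Pts} {s : Fin p.n → ℂ → ℂ} {e e₀ : EF p.m} (h : IsF Ω p s e e₀) :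
    IsF Ω (q0 p) s eN eN := ⟨h.s, isE_nil _ _ _, isE_nil _ _ _⟩

theorem vF_nil (x : Fin n → ℂ) (y y' : Fin 0 → ℂ) (s : Fin n → ℂ → ℂ) :
    vF ⟨n, 0, x, y, Fin.elim0⟩ s eN eN = vF ⟨n, 0, x, y', Fin.elim0⟩ s eN eN := by
  rw [Subsingleton.elim y y']

end

/-- **Covariance of the Pfaffian of the free model.** -/
theorem algF : SAlgF := by
  intro φ c p hp hn s s' e e₀ e' e₀' h h' p1 p2
  obtain ⟨μ, hμ⟩ := c.mt0 _ p.x hp.1 (by simpa using hn)
  obtain ⟨τ, t1, t2⟩ := cs_sgn hμ hp.1 (good_x hp)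
  have a := vF_cov (p := q0 p) (good_q0 hp) hn (isF_q0 h) (s' := s') (e' := eN) (e₀' := eN)
    ⟨h'.s, isE_nil _ _ _, isE_nil _ _ _⟩ hμ t2
  have b : vF (im φ (q0 p)) s' eN eN = vF (q0 (im φ p)) s' eN eN := vF_nil _ _ _ _
  rw [b, ef, Fin.prod_univ_zero, mul_one] at a
  rcases t1 with rfl | rfl
  · rw [vF_cov hp hn h h' hμ t2, one_mul]
  · linarith

end Vale.Agent.N144.Ag
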