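import Vale.Agent.N144.Ag.Free

/-!
Covariance of the value of the plus model.
-/

namespace Vale.Agent.N144.Ag

open Complex Finset Vale.Agent.P144
open Vale.Agent.P144.AL (Pf flat flat_map Pf_map)
open Vale.Agent.P144S.F (lb)
open Vale.Agent.P144Y (Dom Ext)
open Vale.Agent.P144Y.C (zs zs_ne)
open Vale.Agent.P144Y.J (p0 good_p0)
open Vale.Agent.P144T (Good0)
open Vale.Agent.N144.C
open scoped symmDiff

variable {φ μ : ℂ → ℂ}

theorem vP_cov {κ : Type} [Fintype κ] {Ω : Dom} {ζ : κ → ℂ} {p : Pts} {e e' : EF p.m}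
    {σ : Fin p.m → ℂ} {Y Y' : Fin p.m → ℂ → ℂ} (h : ER φ μ p.y e e' σ)
    (h' : IsE Ω ζ (fun k => φ (p.y k)) e') (hL : LY Y')
    (hY : ∀ k η, Y k η = σ k * Y' k (η * σ k)) : vP p e Y = ef φ p.y * vP (im φ p) e' Y' := by
  let K : Fin p.m × ℂ → Fin p.m × ℂ → ℝ := fun u v => kE e' (fun k => φ (p.y k)) Y' u.1 u.2 v.1 v.2
  have b : ∀ k, Bil (RingHom.id ℝ) K fun η => (k, η) := fun k =>
    ⟨fun η u => kE_l _ _ _ _, fun η u => kE_r h' hL _ _ _ _, fun η => kE_z h' hL _ _⟩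
  have a := Pf_rot b (fun k => eh (p.j k)) (fun _ => 1) σ (univ : Finset (Fin p.m)).toList []
  have e1 : ∀ η : Fin p.m × Bool → ℂ, Pf (fun u v : Fin p.m × Bool => K (u.1, η u) (v.1, η v))
      (lb (univ : Finset (Fin p.m)).toList) = Pf K ([] ++ flat (fun k => (k, η (k, false)))
        (fun k => (k, η (k, true))) (univ : Finset (Fin p.m)).toList) := fun η => by
    rw [← Pf_map K fun u : Fin p.m × Bool => (u.1, η u), lb, flat_map, List.nil_append]
  rw [ef_eq h.sq, RingHom.id_apply] at a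
  unfold vP
  simp only [h.kE hY]
  rw [mul_left_comm]
  congr 1
  exact (e1 fun u => (if u.2 then 1 else eh (p.j u.1)) * σ u.1).trans
    (a.trans (congrArg _ (e1 fun u => if u.2 then 1 else eh (p.j u.1)).symm))

section

variable {N : ℕ}

theorem card_flip (S : Finset (Fin N)) (o : Fin N) (n : ℕ) :
    Even (n + (S ∆ {o}).card) ↔ ¬ Even (n + S.card) := by
  by_cases h : o ∈ S
  · have : S ∆ {o} = S.erase o := by
      ext s
      by_cases a : s = o <;> simp [mem_symmDiff, a, h]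
    rw [this, ← card_erase_add_one h, ← add_assoc, Nat.even_add_one, not_not]
  · have : S ∆ {o} = insert o S := by
      ext s
      by_cases a : s = o <;> simp [mem_symmDiff, a, h]
    rw [this, card_insert_of_notMem h, ← add_assoc, Nat.even_add_one]

theorem root_flip {D : Set ℂ} {ξ : Fin N → ℂ} {o : Fin N} {r : ℂ → ℂ} (hd : DifferentiableOn ℂ r D)
    (hr : ∀ z ∈ D, r z ^ 2 = z - ξ o) (ho : ξ o ∉ D) (S : Finset (Fin N)) :
    ∃ u : ℂ → ℂ, DifferentiableOn ℂ u D ∧ ∀ z ∈ D, u z ≠ 0 ∧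
      u z ^ 2 * ∏ s ∈ S, (z - ξ s) = ∏ s ∈ S ∆ {o}, (z - ξ s) := by
  have n : ∀ z ∈ D, r z ≠ 0 := fun z hz e => by
    have := hr z hz
    rw [e, zero_pow two_ne_zero, eq_comm, sub_eq_zero] at this
    exact ho (this ▸ hz)
  by_cases h : o ∈ S
  · have : S ∆ {o} = S.erase o := by
      ext s
      by_cases a : s = o <;> simp [mem_symmDiff, a, h]
    refine ⟨fun z => (r z)⁻¹, hd.inv n, fun z hz => ⟨inv_ne_zero (n z hz), ?_⟩⟩
    rw [this, ← mul_prod_erase _ _ h, ← hr z hz, inv_pow,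
      inv_mul_cancel_left₀ (pow_ne_zero 2 (n z hz))]
  · have : S ∆ {o} = insert o S := by
      ext s
      by_cases a : s = o <;> simp [mem_symmDiff, a, h]
    exact ⟨r, hd, fun z hz => ⟨n z hz, by rw [this, prod_insert h, hr z hz]⟩⟩

/-- The matching of the sets of components. -/
def bt (n : ℕ) (o o' : Fin N) (S : Finset (Fin N)) : Finset (Fin N) :=
  if Even (n + S.card) then S else (S ∆ {o}) ∆ {o'}

theorem bt_inv (n : ℕ) (o o' : Fin N) : Function.Involutive (bt n o o') := fun S => by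
  by_cases h : Even (n + S.card)
  · rw [bt, bt, if_pos h, if_pos h]
  · have : ¬ Even (n + ((S ∆ {o}) ∆ {o'}).card) := by rw [card_flip, card_flip]; simpa using h
    rw [bt, bt, if_neg h, if_neg this, symmDiff_right_comm (S ∆ {o}) {o'} {o},
      symmDiff_symmDiff_cancel_right, symmDiff_symmDiff_cancel_right]

theorem bt_val {n : ℕ} {o o' : Fin N} {g g' : Finset (Fin N) → ℝ} {t : ℝ}
    (h : ∀ S, Even (n + S.card) → g S = t * g' S) (h1 : ∀ S, g (S ∆ {o}) = g S)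
    (h2 : ∀ S, g' (S ∆ {o'}) = g' S) (S : Finset (Fin N)) : g S = t * g' (bt n o o' S) := by
  unfold bt
  split_ifs with a
  · exact h S a
  · rw [h2, ← h _ ((card_flip _ _ _).2 a), h1]

theorem sum_bt {M : Type} [AddCommMonoid M] {ξ ξ' : Fin N → ℂ} (h : Function.Injective ξ)
    (h' : Function.Injective ξ') (n : ℕ) (o o' : Fin N) {F F' : Finset ℂ → M}
    (e : ∀ S, F (S.image ξ) = F' ((bt n o o' S).image ξ')) :
    ∑ T ∈ (univ.image ξ).powerset, F T = ∑ T ∈ (univ.image ξ').powerset, F' T := by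
  rw [powerset_image, powerset_image, sum_image fun _ _ _ _ e => image_injective h e,
    sum_image fun _ _ _ _ e => image_injective h' e, powerset_univ,
    ← (bt_inv n o o').bijective.sum_comp fun S => F' (S.image ξ')]
  exact sum_congr rfl fun S _ => e S

end

theorem prod_zs (p : Pts) {N : ℕ} {ξ : Fin N → ℂ} (h : Function.Injective ξ) (S : Finset (Fin N))
    (z : ℂ) : ∏ q, (z - zs p (S.image ξ) q) = (∏ i, (z - p.x i)) * ∏ s ∈ S, (z - ξ s) := by
  rw [Fintype.prod_sum_type, ← prod_image (f := fun t => z - t) fun _ _ _ _ e => h e,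
    ← prod_coe_sort (S.image ξ)]
  rfl

theorem zs_inj {D : Set ℂ} {p : Pts} (hp : Good0 D p) {T : Finset ℂ} (hT : ∀ z ∈ T, z ∈ Ext D) :
    Function.Injective (zs p T) := by
  have o : ∀ (i : Fin p.n) (s : T), p.x i ≠ s := fun i s e =>
    (hT _ s.2).2 (subset_closure (e ▸ hp.1 i))
  rintro (i | s) (j | t) h
  · exact congrArg Sum.inl (good_x hp h)
  · exact absurd h (o i t)
  · exact absurd h.symm (o j s)
  · exact congrArg Sum.inr (Subtype.ext h)

theorem zs_p0 (p : Pts) (T : Finset ℂ) : zs (im φ (p0 p)) T = zs (p0 (im φ p)) T := by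
  funext q
  rcases q with i | s
  exacts [i.elim0, rfl]

variable (c : Pair φ)

theorem mt_bt {p : Pts} (hx : ∀ i, p.x i ∈ c.Ω.D) (S : Finset (Fin c.N)) : ∃ μ, Mt c.Ω.D φ
    (zs p (S.image c.ξ)) (zs (im φ p) ((bt p.n c.o c.o' S).image c.ξ')) μ := by
  have k : ∀ S : Finset (Fin c.N), Even (p.n + S.card) → ∃ μ, DifferentiableOn ℂ μ c.Ω.D ∧
      ∀ z ∈ c.Ω.D, μ z ≠ 0 ∧ μ z ^ 2 * ((∏ i, (φ z - φ (p.x i))) * ∏ s ∈ S, (φ z - c.ξ' s)) =
        deriv φ z * ((∏ i, (z - p.x i)) * ∏ s ∈ S, (z - c.ξ s)) := fun S hS => by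
    obtain ⟨μ, h⟩ := c.mt _ p.x S hx (by simpa using hS)
    refine ⟨μ, h.d, fun z hz => ⟨h.ne z hz, ?_⟩⟩
    have := h.sq z hz
    simp only [Fintype.prod_sum_type, Sum.elim_inl, Sum.elim_inr] at this
    rwa [prod_coe_sort S fun s => φ z - c.ξ' s, prod_coe_sort S fun s => z - c.ξ s] at this
  by_cases a : Even (p.n + S.card)
  · obtain ⟨μ, h1, h2⟩ := k S a
    exact ⟨μ, h1, fun z hz => (h2 z hz).1, fun z hz => by
      rw [prod_zs _ c.inj, prod_zs _ c.inj', bt, if_pos a, (h2 z hz).2]⟩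
  · obtain ⟨μ, h1, h2⟩ := k _ ((card_flip _ c.o _).2 a)
    obtain ⟨r, r1, r2⟩ := c.rto
    obtain ⟨r', r3, r4⟩ := c.rto'
    obtain ⟨u, u1, u2⟩ := root_flip r1 r2 (fun e => (c.ext _).2 (subset_closure e)) (S ∆ {c.o})
    obtain ⟨v, v1, v2⟩ := root_flip r3 r4 (fun e => (c.ext' _).2 (subset_closure e)) (S ∆ {c.o})
    have m := c.bih.b.mapsTo
    refine ⟨fun z => μ z * u z / v (φ z), (h1.mul u1).div (v1.comp c.bih.d m)
      fun z hz => (v2 _ (m hz)).1, fun z hz => div_ne_zero (mul_ne_zero (h2 z hz).1 (u2 z hz).1)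
        (v2 _ (m hz)).1, fun z hz => ?_⟩
    have b1 := (u2 z hz).2
    have b2 := (v2 _ (m hz)).1
    rw [symmDiff_symmDiff_cancel_right] at b1
    rw [prod_zs _ c.inj, prod_zs _ c.inj', bt, if_neg a, ← (v2 _ (m hz)).2, ← b1]
    field_simp
    linear_combination u z ^ 2 * (h2 z hz).2

theorem er_bt {p : Pts} (hp : Good0 c.Ω.D p) (S : Finset (Fin c.N)) {e e' : EF p.m}
    (h : IsE c.Ω (zs p (S.image c.ξ)) p.y e)
    (h' : IsE c.Ω' (zs (im φ p) ((bt p.n c.o c.o' S).image c.ξ')) (im φ p).y e') :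
    ∃ μ σ, ER φ μ p.y e e' σ := by
  obtain ⟨μ, hμ⟩ := mt_bt c hp.1 S
  have hT : ∀ z ∈ S.image c.ξ, z ∈ Ext c.Ω.D := fun z hz => by
    obtain ⟨s, -, rfl⟩ := mem_image.1 hz
    exact c.ext s
  exact ⟨μ, exists_er (c := c.toPair0) hμ (zs_inj hp hT) hp.2.1 (good_y hp)
    (fun q k => zs_ne hp hT k q) h h'⟩

theorem ly_sum {m : ℕ} {A : Finset (Finset ℂ)} (w : Finset ℂ → ℝ) {Y : Finset ℂ → Fin m → ℂ → ℂ}
    (h : ∀ S ∈ A, LY (Y S)) : LY fun k η => ∑ S ∈ A, (w S : ℂ) * Y S k η := fun k η => by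
  constructor
  · simp only [mul_sum, ← sum_add_distrib]
    exact sum_congr rfl fun S hS => by rw [(h S hS k η).1]; ring
  · rw [mul_sum, re_sum]
    exact sum_eq_zero fun S hS => by rw [mul_left_comm, re_ofReal_mul, (h S hS k η).2, mul_zero]

/-- **Covariance of the value of the plus model.** -/
theorem algP : SAlgP := by
  intro φ c p hp g g₀ g' g₀' e e₀ e' e₀' t h1 h2 h3 h4 h5 h6 h7 h8
  have s1 : ∀ (ξ : Fin c.N → ℂ) (S : Finset (Fin c.N)), S.image ξ ⊆ univ.image ξ := fun ξ S =>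
    image_subset_image (subset_univ S)
  have k1 := bt_val h5 (fun S => (h7 S).1) fun S => (h8 S).1
  have k2 := bt_val (n := 0) (t := 1) (fun S hS => (h6 S (by simpa using hS)).trans
    (one_mul _).symm) (fun S => (h7 S).2) fun S => (h8 S).2
  simp only [one_mul] at k2
  have k3 := sum_bt c.inj c.inj' 0 c.o c.o' k2
  unfold cP
  rw [k3, ← mul_div_assoc, mul_sum]
  congr 1
  refine sum_bt c.inj c.inj' p.n c.o c.o' fun S => ?_
  obtain ⟨μ, σ, hσ⟩ := er_bt c hp S (h1 _ (s1 _ _)) (h3 _ (s1 _ _))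
  rw [k1, vP_cov hσ (h3 _ (s1 _ _)) (ly_sum _ fun T hT => ly_of (h4 T (mem_powerset.1 hT)))
    fun k η => ?_]
  · ring
  · rw [mul_sum]
    refine sum_bt c.inj c.inj' 0 c.o c.o' fun T => ?_
    obtain ⟨μ', τ, hτ⟩ := er_bt c (good_p0 hp) T (h2 _ (s1 _ _))
      (e' := e₀' ((bt 0 c.o c.o' T).image c.ξ')) (by rw [zs_p0]; exact h4 _ (s1 _ _))
    rw [k2, hτ.Y, (ly_of (h4 _ (s1 _ _))).sgn ((hτ.sq k).trans (hσ.sq k).symm), mul_left_comm]

end Vale.Agent.N144.Ag
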