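import Vale.Agent.N144.C.Uq
import Vale.Agent.N144.C.Defs2

/-!
The solutions of the boundary value problems in conformally equivalent domains.
-/

namespace Vale.Agent.N144.Ag

open Filter Topology Complex Set
open Vale.Agent.P144.H170 (F2 gq PP)
open Vale.Agent.P144.H365 (ResNN)
open Vale.Agent.P144.H135 (w0 kap)
open Vale.Agent.P144Y (Dom)
open Vale.Agent.N144.C

variable {κ κ' ι ι' : Type} [Fintype κ] [Fintype κ'] [Fintype ι] [Fintype ι'] {φ m q : ℂ → ℂ}
  (c : Pair0 φ)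

theorem der {z : ℂ} (hz : z ∈ c.Ω.D) : HasDerivAt φ (deriv φ z) z :=
  (c.bih.d.differentiableAt (c.Ω.op.mem_nhds hz)).hasDerivAt

theorem punct {z : ℂ} (hz : z ∈ c.Ω.D) : Tendsto φ (𝓝[≠] z) (𝓝[≠] (φ z)) := by
  refine tendsto_nhdsWithin_iff.2 ⟨(der c hz).continuousAt.tendsto.mono_left
    nhdsWithin_le_nhds, ?_⟩
  filter_upwards [self_mem_nhdsWithin, nhdsWithin_le_nhds (c.Ω.op.mem_nhds hz)] with y a b e
  exact a (c.bih.b.injOn b hz e)

section

variable {ζ : κ → ℂ} {ω : ι → ℂ} {ζ' : κ' → ℂ} {ω' : ι' → ℂ}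

theorem PP_eq (ζ : κ → ℂ) (ω : ι → ℂ) (z : ℂ) : PP ζ ω z = ∏ p, (z - Sum.elim ζ ω p) := by
  simp [PP]

variable {c}

theorem F2_pull (h : Mt c.Ω.D φ (Sum.elim ζ ω) (Sum.elim ζ' ω') m) (q : ℂ → ℂ) {z : ℂ}
    (hz : z ∈ c.Ω.D) (hn : z ∉ range (Sum.elim ζ ω)) :
    F2 ζ ω (fun z => q (φ z) * m z) z = F2 ζ' ω' q (φ z) * deriv φ z := by
  have a : ∏ p, (z - Sum.elim ζ ω p) ≠ 0 :=
    Finset.prod_ne_zero_iff.2 fun p _ => sub_ne_zero.2 fun e => hn ⟨p, e.symm⟩
  have e := h.sq z hz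
  have b : ∏ p, (φ z - Sum.elim ζ' ω' p) ≠ 0 := fun b => by
    rw [b, mul_zero] at e
    exact mul_ne_zero (c.ne z hz) a e.symm
  unfold F2
  rw [PP_eq, PP_eq, div_mul_eq_mul_div, div_eq_div_iff a b]
  linear_combination q (φ z) ^ 2 * e

theorem bd_pull (h : Mt c.Ω.D φ (Sum.elim ζ ω) (Sum.elim ζ' ω') m) (b : c.Ω'.Bd (F2 ζ' ω' q)) :
    c.Ω.Bd (F2 ζ ω fun z => q (φ z) * m z) :=
  c.pb _ _ (range (Sum.elim ζ ω) ∩ c.Ω.D) ((finite_range _).inter_of_left _) inter_subset_right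
    (fun _ hz hn => F2_pull h q hz fun e => hn ⟨e, hz⟩) b

theorem res_pull (h : Mt c.Ω.D φ (Sum.elim ζ ω) (Sum.elim ζ' ω') m) {z : ℂ} (hz : z ∈ c.Ω.D)
    (r : ResNN ζ' ω' q (φ z)) : ResNN ζ ω (fun z => q (φ z) * m z) z := by
  obtain ⟨t, ht, hl⟩ := r
  have t1 : Tendsto (fun y => deriv φ y / slope φ z y) (𝓝[≠] z) (𝓝 (deriv φ z / deriv φ z)) :=
    (((c.bih.d.deriv c.Ω.op).continuousOn.continuousAt (c.Ω.op.mem_nhds hz)).tendsto.mono_left
      nhdsWithin_le_nhds).div (hasDerivAt_iff_tendsto_slope.1 (der c hz)) (c.ne z hz)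
  rw [div_self (c.ne z hz)] at t1
  have t3 := (hl.comp (punct c hz)).mul t1
  rw [mul_one] at t3
  refine ⟨t, ht, t3.congr' ?_⟩
  have f : ∀ᶠ y in 𝓝[≠] z, y ∉ range (Sum.elim ζ ω) := by
    have := ((finite_range (Sum.elim ζ ω)).subset (sdiff_subset (t := {z}))).isClosed.isOpen_compl
    filter_upwards [self_mem_nhdsWithin, nhdsWithin_le_nhds (this.mem_nhds fun e => e.2 rfl)]
      with y a b e using b ⟨e, a⟩
  filter_upwards [nhdsWithin_le_nhds (c.Ω.op.mem_nhds hz), self_mem_nhdsWithin, f] with y b a n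
  have e := F2_pull h q b n
  have n1 : y - z ≠ 0 := sub_ne_zero.2 a
  have n2 : φ y - φ z ≠ 0 := sub_ne_zero.2 fun e => a (c.bih.b.injOn b hz e)
  unfold F2 at e
  simp only [Function.comp_apply, gq, slope_def_field]
  rw [e]
  field_simp

end

section

variable {c} {ζ : κ → ℂ} {ζ' : κ' → ℂ}

theorem mt_congr {D : Set ℂ} {ω : ι → ℂ} {ω' : ι' → ℂ} (h : Mt D φ ζ ζ' m)
    (e : ∀ z, ∏ p, (z - ω p) = ∏ p, (z - ζ p)) (e' : ∀ z, ∏ p, (z - ω' p) = ∏ p, (z - ζ' p)) :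
    Mt D φ ω ω' m := ⟨h.d, h.ne, fun z hz => by rw [e, e', h.sq z hz]⟩

theorem mt_w0 {D : Set ℂ} (h : Mt D φ ζ ζ' m) : Mt D φ (Sum.elim ζ w0) (Sum.elim ζ' w0) m :=
  mt_congr h (fun z => by simp) fun z => by simp

theorem mt_img (h : Mt c.Ω.D φ ζ ζ' m) {p : κ} (hp : ζ p ∈ c.Ω.D) : ∃ p', ζ' p' = φ (ζ p) := by
  have e := h.sq _ hp
  rw [Finset.prod_eq_zero (Finset.mem_univ p) (sub_self _), mul_zero] at e
  obtain ⟨p', -, e'⟩ := Finset.prod_eq_zero_iff.1
    ((mul_eq_zero.1 e).resolve_left (pow_ne_zero 2 (h.ne _ hp)))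
  exact ⟨p', (sub_eq_zero.1 e').symm⟩

theorem hd_prod (ζ : κ → ℂ) {z : ℂ} (hn : ∀ p, ζ p ≠ z) :
    HasDerivAt (fun z => ∏ p, (z - ζ p)) ((∏ p, (z - ζ p)) * (2 * sh ζ z)) z := by
  classical
  have := HasDerivAt.fun_finsetProd (u := Finset.univ) (f := fun p z => z - ζ p) (f' := fun _ => 1)
    (x := z) fun p _ => (hasDerivAt_id z).sub_const _
  refine this.congr_deriv (Eq.symm ?_)
  unfold sh
  rw [mul_div_cancel₀ _ two_ne_zero, Finset.mul_sum]
  refine Finset.sum_congr rfl fun p _ => ?_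
  rw [← Finset.mul_prod_erase _ _ (Finset.mem_univ p), smul_eq_mul, mul_one, mul_comm,
    inv_mul_cancel_left₀ (sub_ne_zero.2 (hn p).symm)]

/-- The logarithmic derivative of the root. -/
theorem mt_der (h : Mt c.Ω.D φ ζ ζ' m) {y : ℂ} (hy : y ∈ c.Ω.D) (hn : ∀ p, ζ p ≠ y)
    (hn' : ∀ p, ζ' p ≠ φ y) : 2 * deriv m y * deriv φ y =
      m y * (deriv (deriv φ) y + 2 * deriv φ y * (sh ζ y - deriv φ y * sh ζ' (φ y))) := by
  have N := c.Ω.op.mem_nhds hy
  have d1 := ((h.d.differentiableAt N).hasDerivAt.pow 2).mul ((hd_prod ζ' hn').comp y (der c hy))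
  have d2 := ((c.bih.d.deriv c.Ω.op).differentiableAt N).hasDerivAt.mul (hd_prod ζ hn)
  have e := d1.unique (d2.congr_of_eventuallyEq (by
    filter_upwards [N] with z hz using h.sq z hz))
  have e0 := h.sq y hy
  have a : ∏ p, (φ y - ζ' p) ≠ 0 :=
    Finset.prod_ne_zero_iff.2 fun p _ => sub_ne_zero.2 (hn' p).symm
  simp only [Function.comp_apply, Pi.pow_apply, Nat.cast_ofNat, Nat.add_one_sub_one, pow_one] at e
  refine mul_left_cancel₀ (mul_ne_zero (h.ne y hy) a) ?_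
  linear_combination deriv φ y * e - (deriv (deriv φ) y + 2 * deriv φ y * sh ζ y) * e0

theorem slope2 {y : ℂ} (hy : y ∈ c.Ω.D) :
    HasDerivAt (dslope φ y) (deriv (deriv φ) y / 2) y := by
  have A := c.bih.d.analyticAt (c.Ω.op.mem_nhds hy)
  obtain ⟨P, hP⟩ := A
  have h1 := hP.has_fpower_series_dslope_fslope.hasDerivAt
  have h2 := hP.has_fpower_series_dslope_fslope.analyticAt
  have e : φ = fun z => φ y + (z - y) * dslope φ y z := funext fun z => by
    rw [← ds_mul]; ring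
  generalize dslope φ y = u at *
  have e1 : deriv φ =ᶠ[𝓝 y] fun z => u z + (z - y) * deriv u z := by
    filter_upwards [h2.eventually_analyticAt] with z hz
    rw [e]
    have := ((((hasDerivAt_id z).sub_const y).mul hz.differentiableAt.hasDerivAt).const_add
      (φ y)).deriv
    simpa using this
  have d := (h2.differentiableAt.hasDerivAt.add (((hasDerivAt_id y).sub_const y).mul
    h2.deriv.differentiableAt.hasDerivAt)).congr_of_eventuallyEq e1
  rw [d.deriv]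
  refine h2.differentiableAt.hasDerivAt.congr_deriv ?_
  simp

/-- Transport of the solution with a pole. -/
theorem pol_pull (h : Mt c.Ω.D φ ζ ζ' m) {y r s : ℂ} (hy : y ∈ c.Ω.D) (hn : ∀ p, ζ p ≠ y)
    (hq : Pol c.Ω' ζ' (φ y) r q s) :
    Pol c.Ω ζ y (m y * r / deriv φ y) (fun z => q (φ z) * m z) (m y * s) where
  qd := (hq.qd.comp (c.bih.d.mono sdiff_subset) fun z hz =>
    ⟨c.bih.b.mapsTo hz.1, fun e => hz.2 (c.bih.b.injOn hz.1 hy e)⟩).mul (h.d.mono sdiff_subset)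
  loc := by
    have N := c.Ω.op.mem_nhds hy
    have hn' : ∀ p, ζ' p ≠ φ y := fun p e => by
      have := h.sq y hy
      rw [Finset.prod_eq_zero (Finset.mem_univ p) (sub_eq_zero.2 e.symm), mul_zero] at this
      exact mul_ne_zero (c.ne y hy)
        (Finset.prod_ne_zero_iff.2 fun p _ => sub_ne_zero.2 (hn p).symm) this.symm
    have dm := (h.d.differentiableAt N).hasDerivAt
    have n0 : dslope φ y y ≠ 0 := by rw [dslope_same]; exact c.ne y hy
    have t1 := (hq.loc.comp (punct c hy)).mul (dm.continuousAt.tendsto.mono_left nhdsWithin_le_nhds)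
    have t2 := (hasDerivAt_iff_tendsto_slope.1 (dm.div (slope2 hy) n0)).const_mul r
    have e := mt_der h hy hn hn'
    have n := c.ne y hy
    convert (t1.add t2).congr' ?_ using 2
    · rw [dslope_same]
      field_simp
      linear_combination (-r) * e
    · filter_upwards [self_mem_nhdsWithin, nhdsWithin_le_nhds N] with z a b
      have n1 : z - y ≠ 0 := sub_ne_zero.2 a
      have n2 : φ z - φ y ≠ 0 := sub_ne_zero.2 fun e => a (c.bih.b.injOn b hy e)
      simp only [Function.comp_apply, slope_def_field, Pi.div_apply, dslope_same, ds_ne φ a]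
      field_simp
      ring
  bd := bd_pull (mt_w0 h) hq.bd
  rs := fun p hp => by
    obtain ⟨p', e⟩ := mt_img h hp
    exact res_pull (mt_w0 h) hp (e ▸ hq.rs p' (e ▸ c.bih.b.mapsTo hp))

theorem prod_sub {n : ℕ} (x : Fin n → ℂ) (j : Fin n) (z : ℂ) :
    ∏ p, (z - Sum.elim (fun i : {i // i ≠ j} => x i) (fun _ : Unit => x j) p) = ∏ p, (z - x p) := by
  rw [Fintype.prod_sum_type, Fintype.prod_eq_mul_prod_subtype_ne (fun p => z - x p) j, mul_comm]
  simp

theorem mt_at {n : ℕ} {x : Fin n → ℂ} (h : Mt c.Ω.D φ x (fun i => φ (x i)) m) {j : Fin n}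
    (hj : x j ∈ c.Ω.D) : m (x j) ^ 2 * ∏ i : {i // i ≠ j}, (φ (x j) - φ (x i)) =
      ∏ i : {i // i ≠ j}, (x j - x i) := by
  have N := c.Ω.op.mem_nhds hj
  have c1 : ContinuousAt (fun z => m z ^ 2 * (∏ i : {i // i ≠ j}, (φ z - φ (x i))) *
      dslope φ (x j) z) (x j) :=
    (((h.d.continuousOn.continuousAt N).pow 2).mul (tendsto_finsetProd _ fun i _ =>
      (der c hj).continuousAt.sub continuousAt_const)).mul (slope2 hj).continuousAt
  have c2 : ContinuousAt (fun z => deriv φ z * ∏ i : {i // i ≠ j}, (z - x i)) (x j) :=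
    ((c.bih.d.deriv c.Ω.op).continuousOn.continuousAt N).mul (by fun_prop)
  have e := tendsto_nhds_unique_of_eventuallyEq (c1.tendsto.mono_left nhdsWithin_le_nhds)
    (c2.tendsto.mono_left (nhdsWithin_le_nhds (s := {x j}ᶜ))) (by
      filter_upwards [self_mem_nhdsWithin, nhdsWithin_le_nhds N] with z a b
      have e := h.sq z b
      rw [← prod_sub x j, ← prod_sub (fun i => φ (x i)) j] at e
      simp only [Fintype.prod_sum_type, Fintype.prod_unique, Sum.elim_inl, Sum.elim_inr,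
        ds_mul φ (x j) z] at e
      exact mul_left_cancel₀ (sub_ne_zero.2 a) (by linear_combination e))
  rw [dslope_same] at e
  exact mul_left_cancel₀ (c.ne _ hj) (by linear_combination e)

/-- Transport of the solution with a source. -/
theorem ssol_pull {n : ℕ} {x : Fin n → ℂ} (h : Mt c.Ω.D φ x (fun i => φ (x i)) m) {j : Fin n}
    (hj : x j ∈ c.Ω.D) (hq : SSol c.Ω' (fun i : {i // i ≠ j} => φ (x i)) (φ (x j)) q) :
    SSol c.Ω (fun i : {i // i ≠ j} => x i) (x j) fun z => q (φ z) * m z := by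
  have h' := mt_congr h (prod_sub x j) (prod_sub (fun i => φ (x i)) j)
  refine ⟨(hq.diff.comp c.bih.d c.bih.b.mapsTo).mul h.d, bd_pull h' hq.bd,
    fun p hp => res_pull h' hp (hq.res p (c.bih.b.mapsTo hp)), ?_⟩
  rw [← mt_at h hj, ← hq.src]
  ring

/-- The relation between the data at the energies. -/
structure ER (φ m : ℂ → ℂ) {k : ℕ} (y : Fin k → ℂ) (e e' : EF k) (σ : Fin k → ℂ) : Prop where
  sq : ∀ k, σ k ^ 2 = deriv φ (y k)
  ne : ∀ k, e.R k ≠ 0
  nz : ∀ k, deriv φ (y k) ≠ 0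
  R : ∀ k, e.R k * σ k = m (y k) * e'.R k
  q : ∀ k l, k ≠ l → ∀ η, e.q l η (y k) = e'.q l (η * σ l) (φ (y k)) * m (y k)
  Y : ∀ k η, e.Y k η = σ k * e'.Y k (η * σ k)

theorem exists_er (h : Mt c.Ω.D φ ζ ζ' m) (hi : Function.Injective ζ) {k : ℕ} {y : Fin k → ℂ}
    (hy : ∀ k, y k ∈ c.Ω.D) (hyi : Function.Injective y) (hn : ∀ p k, ζ p ≠ y k) {e e' : EF k}
    (he : IsE c.Ω ζ y e) (he' : IsE c.Ω' ζ' (fun k => φ (y k)) e') : ∃ σ, ER φ m y e e' σ := by
  have n : ∀ k, e.R k ≠ 0 := fun k b => by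
    have := he.hR k
    rw [b, zero_pow two_ne_zero] at this
    exact Finset.prod_ne_zero_iff.2 (fun p _ => sub_ne_zero.2 (hn p k).symm) this.symm
  set σ : Fin k → ℂ := fun k => m (y k) * e'.R k / e.R k with hσ
  have e1 : ∀ k, e.R k * σ k = m (y k) * e'.R k := fun k => mul_div_cancel₀ _ (n k)
  have e2 : ∀ k, σ k ^ 2 = deriv φ (y k) := fun k => by
    refine mul_left_cancel₀ (pow_ne_zero 2 (n k)) ?_
    rw [← mul_pow, e1, mul_pow, he'.hR k, h.sq _ (hy k), he.hR k, mul_comm]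
  have u := fun l η => (he.pol l η).unique hi (fun p => hn p l) (hy l) (by
    convert pol_pull h (hy l) (fun p => hn p l) (he'.pol l (η * σ l)) using 1
    rw [eq_div_iff (c.ne _ (hy l)), ← mul_assoc (m _), ← e1, ← e2]
    ring)
  refine ⟨σ, e2, n, fun k => c.ne _ (hy k), e1,
    fun k l hkl η => (u l η).1 _ (hy k) (hyi.ne hkl), fun k η => ?_⟩
  refine mul_left_cancel₀ (n k) ?_
  rw [(u k η).2, ← mul_assoc, ← e1, mul_assoc]

end

end Vale.Agent.N144.Ag
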